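import Vale.Agent.P139Z.Sph.Meas

/-!
Block SPH, part 2: homogeneous functions, eigenfunctions of the spherical Laplacian, completeness.
-/

open Set Filter Topology MeasureTheory Complex
open scoped ContDiff ComplexConjugate

namespace Vale.Agent.P139Z.Sph

variable {d : ℕ}

/-- Smooth functions homogeneous of degree `n`. -/
structure Hom (n : ℕ) (p : Eu d → ℂ) : Prop where
  sm : ContDiff ℝ ∞ p
  hom : ∀ t : ℝ, 0 < t → ∀ y, p (t • y) = (t : ℂ) ^ n * p y

namespace Hom

variable {n k : ℕ} {p q : Eu d → ℂ}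

theorem two (h : Hom n p) : ContDiff ℝ 2 p := h.sm.of_le (by norm_cast)

theorem diff (h : Hom n p) : Differentiable ℝ p := h.two.differentiable two_ne_zero

theorem mul (hp : Hom n p) (hq : Hom k q) : Hom (n + k) fun y => p y * q y :=
  ⟨hp.sm.mul hq.sm, fun t ht y => by rw [hp.hom t ht, hq.hom t ht]; ring⟩

theorem one : Hom 0 fun _ : Eu d => 1 := ⟨contDiff_const, fun _ _ _ => by simp⟩

theorem coord (i : Fin d) : Hom 1 fun y : Eu d => (y i : ℂ) :=
  ⟨ofRealCLM.contDiff.comp (EuclideanSpace.proj (𝕜 := ℝ) i).contDiff, fun _ _ _ => by simp⟩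

theorem euler (h : Hom n p) (y : Eu d) : fderiv ℝ p y y = n * p y := by
  have h1 : HasDerivAt (fun t : ℝ => p (t • y)) (fderiv ℝ p ((1 : ℝ) • y) ((1 : ℝ) • y)) 1 :=
    (h.diff _).hasFDerivAt.comp_hasDerivAt 1 ((hasDerivAt_id (1 : ℝ)).smul_const y)
  have h2 : HasDerivAt (fun t : ℝ => (t : ℂ) ^ n * p y) _ 1 :=
    ((hasDerivAt_pow n ((1 : ℝ) : ℂ)).comp_ofReal).mul_const (p y)
  have h3 := (h1.congr_of_eventuallyEq (f₁ := fun t : ℝ => (t : ℂ) ^ n * p y)
    ((lt_mem_nhds one_pos).mono fun t ht => (h.hom t ht y).symm)).unique h2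
  simpa using h3

theorem euler2 (h : Hom n p) (y : Eu d) :
    fderiv ℝ (fderiv ℝ p) y y y = n * (n - 1) * p y := by
  have h1 := ((h.two.fderiv_right (m := 1) le_rfl).differentiable one_ne_zero y).hasFDerivAt
  have h2 := h1.clm_apply (hasFDerivAt_id y)
  simp only [id, h.euler] at h2
  have h3 := congrArg (fun L => L y) (h2.unique ((h.diff y).hasFDerivAt.const_mul (n : ℂ)))
  simp only [add_apply, ContinuousLinearMap.comp_apply, ContinuousLinearMap.flip_apply,
    ContinuousLinearMap.id_apply, smul_apply, h.euler, smul_eq_mul] at h3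
  linear_combination h3

theorem fderiv_smul (h : Hom n p) {t : ℝ} (ht : 0 < t) (y v : Eu d) :
    t * fderiv ℝ p (t • y) v = (t : ℂ) ^ n * fderiv ℝ p y v := by
  have h1 : HasFDerivAt (fun y : Eu d => p (t • y)) _ y :=
    (h.diff _).hasFDerivAt.comp y ((hasFDerivAt_id y).const_smul t)
  simp only [h.hom t ht] at h1
  simpa using congrArg (fun L => L v) (h1.unique ((h.diff y).hasFDerivAt.const_mul _))

theorem pd (h : Hom (n + 1) p) (v : Eu d) : Hom n fun y => fderiv ℝ p y v := by
  refine ⟨(h.sm.fderiv_right (m := ∞) (by simp)).clm_apply contDiff_const, fun t ht y => ?_⟩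
  have h0 : (t : ℂ) ≠ 0 := by exact_mod_cast ht.ne'
  apply mul_left_cancel₀ h0
  rw [h.fderiv_smul ht]; ring

theorem const (h : Hom 0 p) (y : Eu d) : p y = p 0 := by
  have h1 : Tendsto (fun t : ℝ => p (t • y)) (𝓝[>] 0) (𝓝 (p ((0 : ℝ) • y))) :=
    ((h.sm.continuous.comp (by fun_prop : Continuous fun t : ℝ => t • y)).tendsto 0).mono_left
      nhdsWithin_le_nhds
  rw [zero_smul] at h1
  refine tendsto_nhds_unique (tendsto_const_nhds.congr' ?_) h1
  filter_upwards [self_mem_nhdsWithin] with t ht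
  rw [h.hom t ht]; simp

theorem lin (h : Hom 1 p) (y : Eu d) : p y = ∑ i, fderiv ℝ p 0 (ee i) * y i := by
  have h1 := h.euler y
  rw [Nat.cast_one, one_mul] at h1
  rw [← h1]
  conv_lhs => enter [2]; rw [← sum_ee y]
  simp only [map_sum, map_smul, real_smul]
  exact Finset.sum_congr rfl fun i _ => by rw [(h.pd (ee i)).const y, mul_comm]

theorem lap (h : Hom (n + 2) p) : Hom n (lap p) :=
  ⟨ContDiff.sum fun i _ => ((h.pd (ee i)).pd (ee i)).sm, fun t ht y => by
    unfold P139Z.lap
    rw [Finset.mul_sum]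
    exact Finset.sum_congr rfl fun i _ => ((h.pd (ee i)).pd (ee i)).hom t ht y⟩

theorem lap_zero (h : Hom 0 p) (y : Eu d) : P139Z.lap p y = 0 := by
  rw [show p = fun _ => p 0 from funext h.const]
  simp [P139Z.lap]

theorem lap_one (h : Hom 1 p) (y : Eu d) : P139Z.lap p y = 0 := by
  refine Finset.sum_eq_zero fun i _ => ?_
  rw [show (fun z => fderiv ℝ p z (EuclideanSpace.single i 1)) = fun _ => fderiv ℝ p 0 (ee i) from
    funext (h.pd (ee i)).const]
  simp

end Hom

/-- The eigenvalues of the spherical Laplacian. -/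
noncomputable def ev (d l : ℕ) : ℂ := (l : ℂ) * (l + d - 2)

theorem ev_ne {l N : ℕ} (hd : 2 ≤ d) (h : l < N) : ev d N - ev d l ≠ 0 := by
  have h1 : (l : ℝ) + 1 ≤ N := by exact_mod_cast h
  have h2 : (2 : ℝ) ≤ d := by exact_mod_cast hd
  have h3 : (0 : ℝ) ≤ l := Nat.cast_nonneg l
  have h4 : (0 : ℝ) < (N - l) * (N + l + d - 2) := mul_pos (by linarith) (by linarith)
  rw [show ev d N - ev d l = (((N - l) * (N + l + d - 2) : ℝ) : ℂ) by
    simp only [ev]; push_cast; ring]
  exact_mod_cast h4.ne'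

/-- Weak form of the equation `Δ q + μ q = p` on the sphere. -/
structure Res (μ : ℂ) (q p : Sp d → ℂ) : Prop where
  cont : Continuous q
  eq : ∀ f : Eu d → ℂ, ContDiff ℝ 2 f → ∀ r : ℝ,
    pr (Cas f) q r + 2 * μ * pr f q r = 2 * pr f p r

theorem cont_Cas {f : Eu d → ℂ} (hf : ContDiff ℝ 2 f) : Continuous (Cas f) :=
  continuous_finsetSum _ fun i _ => continuous_finsetSum _ fun j _ => cont_LL i j hf

theorem pr_comb {f : Eu d → ℂ} (hf : Continuous f) {p q : Sp d → ℂ} (hp : Continuous p)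
    (hq : Continuous q) (a b : ℂ) (r : ℝ) :
    pr f (fun w => a * p w + b * q w) r = a * pr f p r + b * pr f q r := by
  simp only [pr, ← integral_const_mul]
  rw [← integral_add (intg (by fun_prop)) (intg (by fun_prop))]
  exact integral_congr_ae (Eventually.of_forall fun w => by ring)

theorem Hom.res {n : ℕ} {p : Eu d → ℂ} (h : Hom n p) :
    Res (ev d n) (fun w : Sp d => p w) fun w => P139Z.lap p w := by
  have c1 := h.sm.continuous
  have c2 : Continuous (P139Z.lap p) := by
    refine continuous_finsetSum _ fun i _ => ?_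
    exact (((h.two.fderiv_right (m := 1) le_rfl).clm_apply contDiff_const).continuous_fderiv
      one_ne_zero).clm_apply continuous_const
  refine ⟨by fun_prop, fun f hf r => ?_⟩
  have h1 : (fun w : Sp d => Cas p w) =
      fun w : Sp d => 2 * P139Z.lap p w + (-2 * ev d n) * p w := by
    funext w
    rw [Cas_eq h.two, h.euler, h.euler2, nrm_one, ev]
    push_cast
    ring
  rw [pr_Cas hf h.two, h1, pr_comb hf.continuous (by fun_prop) (by fun_prop)]
  ring

/-- Eigenfunctions of degree `l`. -/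
abbrev Eig (l : ℕ) (Y : Sp d → ℂ) : Prop := Res (ev d l) Y fun _ => 0

theorem eig_one : Eig 0 fun _ : Sp d => 1 := by
  simpa only [Hom.one.lap_zero] using (Hom.one (d := d)).res

theorem eig_coord (i : Fin d) : Eig 1 fun w : Sp d => ((w : Eu d) i : ℂ) := by
  simpa only [(Hom.coord i).lap_one] using (Hom.coord i).res

/-- Eigenfunctions are orthogonal to the harmonic homogeneous functions of another degree. -/
theorem Eig.orth (hd : 2 ≤ d) {l n : ℕ} {Y : Sp d → ℂ} (h : Eig l Y) {p : Eu d → ℂ} (hp : Hom n p)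
    (h0 : ∀ y, lap p y = 0) (hl : l ≠ n) : ∫ w : Sp d, p w * Y w ∂sg d = 0 := by
  have h1 := h.eq p hp.two 1
  have h2 : ∀ w : Sp d, Cas p w = (-2 * ev d n) * p w := fun w => by
    rw [Cas_eq hp.two, hp.euler, hp.euler2, h0, ev]
    ring
  simp only [pr, one_smul, h2, mul_zero, integral_zero, mul_assoc, integral_const_mul] at h1
  have h3 : ev d l - ev d n ≠ 0 := by
    rcases hl.lt_or_gt with h | h
    · rw [← neg_sub, neg_ne_zero]; exact ev_ne hd h
    · exact ev_ne hd h
  apply mul_left_cancel₀ h3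
  linear_combination h1 / 2

theorem Eig.int_one (hd : 2 ≤ d) {l : ℕ} {Y : Sp d → ℂ} (h : Eig l Y) (hl : l ≠ 0) :
    ∫ w, Y w ∂sg d = 0 := by
  simpa using h.orth hd Hom.one Hom.one.lap_zero hl

theorem Eig.int_coord (hd : 2 ≤ d) {l : ℕ} {Y : Sp d → ℂ} (h : Eig l Y) (hl : l ≠ 1) (i : Fin d) :
    ∫ w : Sp d, ((w : Eu d) i : ℂ) * Y w ∂sg d = 0 :=
  h.orth hd (Hom.coord i) (Hom.coord i).lap_one hl

theorem int_comb {h p q : Sp d → ℂ} (hh : Continuous h) (hp : Continuous p)
    (hq : Continuous q) (a b : ℂ) : ∫ w, h w * (a * p w + b * q w) ∂sg d =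
      a * ∫ w, h w * p w ∂sg d + b * ∫ w, h w * q w ∂sg d := by
  simp only [← integral_const_mul]
  rw [← integral_add (intg (by fun_prop)) (intg (by fun_prop))]
  exact integral_congr_ae (Eventually.of_forall fun w => by ring)

section complete

variable (hd : 2 ≤ d) {h : Sp d → ℂ} (hh : Continuous h) (h0 : ∫ w, h w ∂sg d = 0)
  (h1 : ∀ i, ∫ w : Sp d, h w * ((w : Eu d) i : ℂ) ∂sg d = 0)
  (h2 : ∀ l, 2 ≤ l → ∀ Y, Eig l Y → ∫ w, h w * Y w ∂sg d = 0)

include hd hh in
theorem step {n : ℕ} {p p' : Sp d → ℂ} (hp : Res (ev d n) p p') (hp0 : ∫ w, h w * p w ∂sg d = 0)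
    {N : ℕ} (hN : n < N) {q : Sp d → ℂ} (hq : Res (ev d N) q p')
    (hq0 : ∫ w, h w * q w ∂sg d = 0) :
    ∃ q, Res (ev d N) q p ∧ ∫ w, h w * q w ∂sg d = 0 := by
  have hne := ev_ne hd hN
  have c1 := hp.cont
  have c2 := hq.cont
  refine ⟨fun w => (ev d N - ev d n)⁻¹ * p w + (-(ev d N - ev d n)⁻¹) * q w,
    ⟨by fun_prop, fun f hf r => ?_⟩, by rw [int_comb hh c1 c2, hp0, hq0]; ring⟩
  rw [pr_comb (cont_Cas hf) c1 c2, pr_comb hf.continuous c1 c2]
  have e1 := hp.eq f hf r
  have e2 := hq.eq f hf r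
  field_simp
  linear_combination e1 - e2

include hd hh h0 h1 h2 in
theorem orth_hom (n : ℕ) : ∀ p : Eu d → ℂ, Hom n p → ∫ w : Sp d, h w * p w ∂sg d = 0 ∧
    ∀ N, n < N → ∃ q, Res (ev d N) q (fun w => p w) ∧ ∫ w, h w * q w ∂sg d = 0 := by
  have hz : ∀ μ : ℂ, Res μ (fun _ : Sp d => 0) fun _ => 0 :=
    fun μ => ⟨continuous_const, fun f _ r => by simp [pr]⟩
  induction n using Nat.twoStepInduction with
  | zero =>
    intro p hp
    have e : ∫ w : Sp d, h w * p w ∂sg d = 0 := by
      simp only [hp.const _, integral_mul_const, h0, zero_mul]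
    have hr := hp.res
    simp only [hp.lap_zero] at hr
    exact ⟨e, fun N hN => step hd hh hr e hN (hz _) (by simp)⟩
  | one =>
    intro p hp
    have e : ∫ w : Sp d, h w * p w ∂sg d = 0 := by
      simp only [hp.lin _, Finset.mul_sum]
      rw [integral_finsetSum _ fun i _ => intg (by fun_prop)]
      refine Finset.sum_eq_zero fun i _ => ?_
      simp only [mul_left_comm (h _), integral_const_mul, h1, mul_zero]
    have hr := hp.res
    simp only [hp.lap_one] at hr
    exact ⟨e, fun N hN => step hd hh hr e hN (hz _) (by simp)⟩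
  | more n ih _ =>
    intro p hp
    obtain ⟨-, ih⟩ := ih _ hp.lap
    have hr := hp.res
    have e : ∫ w : Sp d, h w * p w ∂sg d = 0 := by
      obtain ⟨q, hq, hq0⟩ := ih (n + 2) (by omega)
      have c1 := hr.cont
      have c2 := hq.cont
      have h3 := h2 (n + 2) (by omega) (fun w => 1 * p w + (-1) * q w)
        ⟨(c1.const_mul 1).add (c2.const_mul _), fun f hf r => by
          rw [pr_comb (cont_Cas hf) c1 c2, pr_comb hf.continuous c1 c2,
            show pr f (fun _ => 0) r = 0 by simp [pr]]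
          linear_combination hr.eq f hf r - hq.eq f hf r⟩
      rw [int_comb hh c1 c2, hq0] at h3
      linear_combination h3
    refine ⟨e, fun N hN => ?_⟩
    obtain ⟨q, hq, hq0⟩ := ih N (by omega)
    exact step hd hh hr e hN hq hq0

theorem eq_zero_of_sq {h : Sp d → ℂ} (hh : Continuous h)
    (h0 : ∫ w, h w * conj (h w) ∂sg d = 0) (w : Sp d) : h w = 0 := by
  simp only [mul_conj, integral_complex_ofReal, ofReal_eq_zero] at h0
  have hc : Continuous fun w => normSq (h w) := continuous_normSq.comp hh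
  rw [integral_eq_zero_iff_of_nonneg (fun w => normSq_nonneg _)
    (hc.integrable_of_hasCompactSupport (HasCompactSupport.of_compactSpace _)),
    hc.ae_eq_iff_eq _ continuous_zero] at h0
  exact normSq_eq_zero.1 (congrFun h0 w)

include hd hh h0 h1 h2 in
theorem complete (w : Sp d) : h w = 0 := by
  let X : Fin d → C(Sp d, ℝ) := fun i => ⟨fun w => (w : Eu d) i, by fun_prop⟩
  have hA := ContinuousMap.subalgebra_topologicalClosure_eq_top_of_separatesPoints
    (Algebra.adjoin ℝ (range X)) fun x y hxy => by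
      by_contra! hcon
      refine hxy (Subtype.ext (PiLp.ext fun i => ?_))
      exact hcon _ ⟨X i, Algebra.subset_adjoin ⟨i, rfl⟩, rfl⟩
  have h3 : ∀ Y ∈ Submonoid.closure (range X), ∃ (n : ℕ) (p : Eu d → ℂ),
      Hom n p ∧ ∀ w : Sp d, p w = (Y w : ℂ) := by
    intro Y hY
    induction hY using Submonoid.closure_induction with
    | mem Y hY => obtain ⟨i, rfl⟩ := hY; exact ⟨1, _, Hom.coord i, fun _ => rfl⟩
    | one => exact ⟨0, _, Hom.one, fun _ => by simp⟩
    | mul Y Z _ _ hY hZ =>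
      obtain ⟨n, p, hp, e1⟩ := hY
      obtain ⟨k, q, hq, e2⟩ := hZ
      exact ⟨n + k, _, hp.mul hq, fun w => by simp [e1, e2]⟩
  have h4 : ∀ Y ∈ Algebra.adjoin ℝ (range X), ∫ w, h w * (Y w : ℂ) ∂sg d = 0 := by
    intro Y hY
    rw [← Subalgebra.mem_toSubmodule, Algebra.adjoin_eq_span] at hY
    induction hY using Submodule.span_induction with
    | mem Y hY =>
      obtain ⟨n, p, hp, e⟩ := h3 Y hY
      simpa only [e] using (orth_hom hd hh h0 h1 h2 n p hp).1
    | zero => simp
    | add Y Z _ _ hY hZ =>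
      have := int_comb hh (p := fun w => (Y w : ℂ)) (q := fun w => (Z w : ℂ)) (by fun_prop)
        (by fun_prop) 1 1
      simpa [hY, hZ] using this
    | smul a Y _ hY =>
      simp only [ContinuousMap.smul_apply, smul_eq_mul, ofReal_mul, mul_left_comm (h _),
        integral_const_mul, hY, mul_zero]
  have h5 : ∀ Y : C(Sp d, ℝ), ∫ w, h w * (Y w : ℂ) ∂sg d = 0 := by
    intro Y
    have hc : Continuous fun Y : C(Sp d, ℝ) => ∫ w, h w * (Y w : ℂ) ∂sg d := by
      refine continuous_iff_continuousAt.2 fun Z => continuousAt_of_dominated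
        (bound := fun w => ‖h w‖ * (‖Z‖ + 1))
        (Eventually.of_forall fun Y => Continuous.aestronglyMeasurable (by fun_prop)) ?_
        ((intg hh).norm.mul_const _)
        (Eventually.of_forall fun w => Continuous.continuousAt (by fun_prop))
      filter_upwards [continuous_norm.continuousAt.eventually_lt_const (lt_add_one ‖Z‖)] with Y hY
      refine Eventually.of_forall fun w => ?_
      rw [norm_mul, norm_real]
      exact mul_le_mul_of_nonneg_left ((Y.norm_coe_le_norm w).trans hY.le) (norm_nonneg _)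
    have hY : Y ∈ (Algebra.adjoin ℝ (range X)).topologicalClosure := by rw [hA]; trivial
    exact closure_minimal (t := {Y | _ = (0 : ℂ)}) h4 (isClosed_eq hc continuous_const) hY
  refine eq_zero_of_sq hh ?_ w
  have h6 := int_comb hh (p := fun w => ((h w).re : ℂ)) (q := fun w => ((h w).im : ℂ))
    (by fun_prop) (by fun_prop) 1 (-I)
  have h7 := h5 ⟨fun w => (h w).re, by fun_prop⟩
  have h8 := h5 ⟨fun w => (h w).im, by fun_prop⟩
  simp only [ContinuousMap.coe_mk] at h7 h8
  rw [h7, h8, mul_zero, mul_zero, add_zero] at h6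
  rw [← h6]
  refine integral_congr_ae (Eventually.of_forall fun w => ?_)
  simp only
  congr 1
  apply Complex.ext <;> simp

end complete

end Vale.Agent.P139Z.Sph
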