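import Vale.Agent.P139Z.Defs

/-!
Block SPH, part 1: the invariant measure on the sphere, rotation fields, integration by parts.
-/

open Set Filter Topology MeasureTheory Complex
open scoped ContDiff Pointwise RealInnerProductSpace

namespace Vale.Agent.P139Z.Sph

variable {d : ℕ}

/-- The unit sphere. -/
abbrev Sp (d : ℕ) : Type := Metric.sphere (0 : Eu d) 1

/-- The surface measure. -/
noncomputable abbrev sg (d : ℕ) : Measure (Sp d) := (volume : Measure (Eu d)).toSphere

theorem nrm_one (w : Sp d) : ‖(w : Eu d)‖ = 1 := norm_eq_of_mem_sphere w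

theorem intg {F : Sp d → ℂ} (hF : Continuous F) : Integrable F (sg d) :=
  hF.integrable_of_hasCompactSupport (HasCompactSupport.of_compactSpace F)

theorem cont_int {X : Type} [TopologicalSpace X] [FirstCountableTopology X] [LocallyCompactSpace X]
    {F : X → Sp d → ℂ} (hF : Continuous (Function.uncurry F)) :
    Continuous fun x => ∫ w, F x w ∂sg d := by
  simpa using continuous_parametric_integral_of_continuous (μ := sg d) hF isCompact_univ

theorem hasDerivAt_int {F F' : ℝ → Sp d → ℂ} (hF : Continuous (Function.uncurry F))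
    (hF' : Continuous (Function.uncurry F')) (hd : ∀ r w, HasDerivAt (fun s => F s w) (F' r w) r)
    (r : ℝ) : HasDerivAt (fun s => ∫ w, F s w ∂sg d) (∫ w, F' r w ∂sg d) r := by
  obtain ⟨C, hC⟩ := ((isCompact_closedBall r 1).prod
    (isCompact_univ (X := Sp d))).exists_bound_of_continuousOn hF'.continuousOn
  have h1 : ∀ s, Continuous (F s) := fun s => hF.comp (by fun_prop : Continuous fun w => (s, w))
  have h2 : Continuous (F' r) := hF'.comp (by fun_prop : Continuous fun w => (r, w))
  exact (hasDerivAt_integral_of_dominated_loc_of_deriv_le (bound := fun _ => C)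
    (Metric.closedBall_mem_nhds r one_pos)
    (Eventually.of_forall fun s => (h1 s).aestronglyMeasurable)
    (intg (h1 r)) h2.aestronglyMeasurable
    (Eventually.of_forall fun w s hs => hC (s, w) ⟨hs, mem_univ _⟩) (integrable_const C)
    (Eventually.of_forall fun w s _ => hd s w)).2

/-- An isometry acting on the sphere. -/
noncomputable def onSp (R : Eu d ≃ₗᵢ[ℝ] Eu d) (w : Sp d) : Sp d :=
  ⟨R w, by rw [mem_sphere_zero_iff_norm, R.norm_map, nrm_one]⟩

theorem cont_onSp (R : Eu d ≃ₗᵢ[ℝ] Eu d) : Continuous (onSp R) :=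
  (R.continuous.comp continuous_subtype_val).subtype_mk _

theorem map_onSp (R : Eu d ≃ₗᵢ[ℝ] Eu d) : (sg d).map (onSp R) = sg d := by
  ext s hs
  have hm := (cont_onSp R).measurable
  rw [Measure.map_apply hm hs, Measure.toSphere_apply' _ (hs.preimage hm),
    Measure.toSphere_apply' _ hs]
  congr 1
  have e3 : Ioo (0 : ℝ) 1 • ((↑) '' (onSp R ⁻¹' s) : Set (Eu d)) =
      R ⁻¹' (Ioo (0 : ℝ) 1 • ((↑) '' s : Set (Eu d))) := by
    ext x
    simp only [Set.mem_smul, Set.mem_preimage, Set.mem_image]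
    constructor
    · rintro ⟨t, ht, y, ⟨w, hw, rfl⟩, rfl⟩
      exact ⟨t, ht, _, ⟨onSp R w, hw, rfl⟩, (R.map_smul t _).symm⟩
    · rintro ⟨t, ht, y, ⟨w, hw, rfl⟩, hx⟩
      refine ⟨t, ht, _, ⟨onSp R.symm w, ?_, rfl⟩, ?_⟩
      · rwa [show onSp R (onSp R.symm w) = w from Subtype.ext (R.apply_symm_apply _)]
      · show t • R.symm (w : Eu d) = x
        rw [← R.symm.map_smul, hx, R.symm_apply_apply]
  rw [e3]
  exact R.measurePreserving.measure_preimage_emb R.toHomeomorph.measurableEmbedding _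

theorem int_iso (R : Eu d ≃ₗᵢ[ℝ] Eu d) {h : Eu d → ℂ} (hh : Continuous h) :
    ∫ w : Sp d, h (R w) ∂sg d = ∫ w : Sp d, h w ∂sg d := by
  conv_rhs => rw [← map_onSp R]
  exact (integral_map (cont_onSp R).measurable.aemeasurable
    (hh.comp continuous_subtype_val).aestronglyMeasurable).symm

/-- Basis vectors. -/
noncomputable abbrev ee (i : Fin d) : Eu d := EuclideanSpace.single i 1

/-- The infinitesimal rotation `y ↦ y_i e_j - y_j e_i`. -/
noncomputable def Jm (i j : Fin d) : Eu d →L[ℝ] Eu d :=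
  (EuclideanSpace.proj i).smulRight (ee j) - (EuclideanSpace.proj j).smulRight (ee i)

theorem Jm_apply (i j : Fin d) (y : Eu d) : Jm i j y = y i • ee j - y j • ee i := by
  simp [Jm]

/-- The projection on the plane of the rotation. -/
noncomputable def Pm (i j : Fin d) : Eu d →L[ℝ] Eu d :=
  (EuclideanSpace.proj i).smulRight (ee i) + (EuclideanSpace.proj j).smulRight (ee j)

theorem Pm_apply (i j : Fin d) (y : Eu d) : Pm i j y = y i • ee i + y j • ee j := by
  simp [Pm]

/-- The rotation of angle `t` in the plane of the coordinates `i`, `j`. -/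
noncomputable def Rm (i j : Fin d) (t : ℝ) : Eu d →L[ℝ] Eu d :=
  1 + (Real.cos t - 1) • Pm i j + Real.sin t • Jm i j

theorem Rm_apply (i j : Fin d) (t : ℝ) (y : Eu d) :
    Rm i j t y = y + (Real.cos t - 1) • Pm i j y + Real.sin t • Jm i j y := by
  simp [Rm]

theorem norm_Rm {i j : Fin d} (hij : i ≠ j) (t : ℝ) (y : Eu d) : ‖Rm i j t y‖ = ‖y‖ := by
  have h1 : Rm i j t y = y + (((Real.cos t - 1) * y i - Real.sin t * y j) • ee i +
      (Real.sin t * y i + (Real.cos t - 1) * y j) • ee j) := by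
    rw [Rm_apply, Pm_apply, Jm_apply]; module
  have h2 : ⟪(ee i : Eu d), ee j⟫ = 0 := by simp [EuclideanSpace.inner_single_left, hij]
  have h3 : ∀ k, ⟪y, (ee k : Eu d)⟫ = y k := fun k => by simp [EuclideanSpace.inner_single_right]
  rw [← sq_eq_sq₀ (norm_nonneg _) (norm_nonneg _), h1, norm_add_sq_real, norm_add_sq_real]
  simp only [inner_add_right, real_inner_smul_left, real_inner_smul_right, h2, h3, norm_smul,
    PiLp.norm_single, norm_one, mul_one, Real.norm_eq_abs, sq_abs]
  linear_combination (y i ^ 2 + y j ^ 2) * Real.cos_sq_add_sin_sq t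

/-- The angular momentum operator. -/
noncomputable def Lop (i j : Fin d) (f : Eu d → ℂ) (y : Eu d) : ℂ := fderiv ℝ f y (Jm i j y)

theorem int_Lop (i j : Fin d) {h : Eu d → ℂ} (hh : ContDiff ℝ 1 h) :
    ∫ w : Sp d, Lop i j h w ∂sg d = 0 := by
  rcases eq_or_ne i j with rfl | hij
  · simp [Lop, Jm_apply]
  have hc := hh.continuous
  have hc' := hh.continuous_fderiv one_ne_zero
  have h1 := hasDerivAt_int (d := d) (F := fun t w => h (Rm i j t w))
    (F' := fun t w => fderiv ℝ h (Rm i j t w) (-Real.sin t • Pm i j w + Real.cos t • Jm i j w))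
    (by simp only [Rm_apply]; fun_prop) (by simp only [Rm_apply]; fun_prop) (fun t w => by
      refine (hh.differentiable one_ne_zero _).hasFDerivAt.comp_hasDerivAt t ?_
      simp only [Rm_apply]
      exact ((((Real.hasDerivAt_cos t).sub_const 1).smul_const _).const_add _).add
        ((Real.hasDerivAt_sin t).smul_const _)) 0
  have h2 : (fun t => ∫ w : Sp d, h (Rm i j t w) ∂sg d) = fun _ => ∫ w : Sp d, h w ∂sg d := by
    funext t
    exact int_iso (LinearIsometry.toLinearIsometryEquiv ⟨(Rm i j t : Eu d →ₗ[ℝ] Eu d),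
      norm_Rm hij t⟩ rfl) hc
  rw [h2] at h1
  simpa [Rm_apply, Lop] using h1.unique (hasDerivAt_const _ _)

theorem contDiff_Lop (i j : Fin d) {f : Eu d → ℂ} {n : ℕ} (hf : ContDiff ℝ (n + 1 : ℕ) f) :
    ContDiff ℝ n (Lop i j f) :=
  (hf.fderiv_right (m := n) (by simp)).clm_apply (Jm i j).contDiff

/-- The pairing with a function on the sphere, at radius `r`. -/
noncomputable def pr (f : Eu d → ℂ) (Y : Sp d → ℂ) (r : ℝ) : ℂ :=
  ∫ w : Sp d, f (r • (w : Eu d)) * Y w ∂sg d

theorem ibp (i j : Fin d) {f Y : Eu d → ℂ} (hf : ContDiff ℝ 1 f) (hY : ContDiff ℝ 1 Y) (r : ℝ) :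
    pr (Lop i j f) (fun w => Y w) r = -pr f (fun w => Lop i j Y w) r := by
  have h1 := int_Lop i j (h := fun y => f (r • y) * Y y) (by fun_prop)
  have h2 : ∀ y : Eu d, Lop i j (fun y => f (r • y) * Y y) y =
      Lop i j f (r • y) * Y y + f (r • y) * Lop i j Y y := by
    intro y
    have h3 : HasFDerivAt (fun y : Eu d => f (r • y)) _ y :=
      (hf.differentiable one_ne_zero _).hasFDerivAt.comp y ((hasFDerivAt_id y).const_smul r)
    have h4 := (h3.mul (hY.differentiable one_ne_zero y).hasFDerivAt).fderiv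
    unfold Lop
    rw [show (fun y => f (r • y) * Y y) = (fun y => f (r • y)) * Y from rfl, h4]
    simp
    ring
  have c1 := (contDiff_Lop i j (n := 0) hf).continuous
  have c2 := (contDiff_Lop i j (n := 0) hY).continuous
  have c3 := hf.continuous
  have c4 := hY.continuous
  simp only [h2] at h1
  rw [integral_add (intg (by fun_prop)) (intg (by fun_prop))] at h1
  exact eq_neg_of_add_eq_zero_left h1

/-- Twice the spherical Laplacian. -/
noncomputable def Cas (f : Eu d → ℂ) (y : Eu d) : ℂ := ∑ i, ∑ j, Lop i j (Lop i j f) y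

theorem cont_LL (i j : Fin d) {f : Eu d → ℂ} (hf : ContDiff ℝ 2 f) :
    Continuous (Lop i j (Lop i j f)) :=
  (contDiff_Lop i j (n := 0) (contDiff_Lop i j (n := 1) hf)).continuous

theorem pr_Cas {f Y : Eu d → ℂ} (hf : ContDiff ℝ 2 f) (hY : ContDiff ℝ 2 Y) (r : ℝ) :
    pr (Cas f) (fun w => Y w) r = pr f (fun w => Cas Y w) r := by
  have c1 := fun i j => cont_LL i j hf
  have c2 := fun i j => cont_LL i j hY
  have c3 := hf.continuous
  have c4 := hY.continuous
  simp only [pr, Cas, Finset.sum_mul, Finset.mul_sum]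
  rw [integral_finsetSum _ fun i _ => intg (by fun_prop),
    integral_finsetSum _ fun i _ => intg (by fun_prop)]
  refine Finset.sum_congr rfl fun i _ => ?_
  rw [integral_finsetSum _ fun i _ => intg (by fun_prop),
    integral_finsetSum _ fun i _ => intg (by fun_prop)]
  refine Finset.sum_congr rfl fun j _ => ?_
  have h1 := ibp i j (contDiff_Lop i j (n := 1) hf) (hY.of_le one_le_two) r
  have h2 := ibp i j (hf.of_le one_le_two) (contDiff_Lop i j (n := 1) hY) r
  rw [h2, neg_neg] at h1
  exact h1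

theorem sum_ee (y : Eu d) : ∑ i, y i • ee i = y := by
  ext k
  simp [Finset.sum_apply, Pi.single_apply]

theorem lap_eq {f : Eu d → ℂ} (hf : ContDiff ℝ 2 f) (y : Eu d) :
    lap f y = ∑ i, fderiv ℝ (fderiv ℝ f) y (ee i) (ee i) := by
  refine Finset.sum_congr rfl fun i _ => ?_
  have h1 := ((hf.fderiv_right (m := 1) le_rfl).differentiable one_ne_zero y).hasFDerivAt
  rw [(h1.clm_apply (hasFDerivAt_const (ee i) y)).fderiv]
  simp

theorem Cas_eq {f : Eu d → ℂ} (hf : ContDiff ℝ 2 f) (y : Eu d) :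
    Cas f y = 2 * ((‖y‖ : ℂ) ^ 2 * lap f y - fderiv ℝ (fderiv ℝ f) y y y
      - ((d : ℂ) - 1) * fderiv ℝ f y y) := by
  have h1 := ((hf.fderiv_right (m := 1) le_rfl).differentiable one_ne_zero y).hasFDerivAt
  set D2 := fderiv ℝ (fderiv ℝ f) y
  set D1 := fderiv ℝ f y with hD1
  have h2 : ∀ i j, Lop i j (Lop i j f) y = (y i : ℂ) ^ 2 * D2 (ee j) (ee j) +
      (y j : ℂ) ^ 2 * D2 (ee i) (ee i) - y i * y j * D2 (ee i) (ee j) -
      y j * y i * D2 (ee j) (ee i) - y i * D1 (ee i) - y j * D1 (ee j) +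
      if i = j then 2 * (y i * D1 (ee i)) else 0 := by
    intro i j
    have h3 := (h1.clm_apply (Jm i j).hasFDerivAt).fderiv
    unfold Lop
    rw [h3]
    rcases eq_or_ne i j with rfl | hij
    · simp [Jm_apply]
      ring
    · simp [Jm_apply, hij, hij.symm, ← hD1]
      ring
  have h4 : D2 y y = ∑ i, ∑ j, y i * y j * D2 (ee i) (ee j) := by
    conv_lhs => rw [← sum_ee y]
    simp only [map_sum, map_smul, sum_apply, smul_apply,
      Finset.smul_sum, real_smul]
    rw [Finset.sum_comm]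
    exact Finset.sum_congr rfl fun i _ => Finset.sum_congr rfl fun j _ => by ring
  have h5 : D1 y = ∑ i, y i * D1 (ee i) := by
    conv_lhs => rw [← sum_ee y]
    simp
  have h6 : (‖y‖ : ℂ) ^ 2 = ∑ i, (y i : ℂ) ^ 2 := by
    exact_mod_cast EuclideanSpace.real_norm_sq_eq y
  have h7 : ∑ i, ∑ j, (y j : ℂ) * y i * D2 (ee j) (ee i) = D2 y y := by
    rw [h4, Finset.sum_comm]
  rw [lap_eq hf, Cas]
  simp only [h2, Finset.sum_add_distrib, Finset.sum_sub_distrib, Finset.sum_ite_eq,
    Finset.mem_univ, if_true, h7, ← h4, Finset.sum_const, Finset.card_univ, Fintype.card_fin,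
    nsmul_eq_mul, ← Finset.mul_sum, ← Finset.sum_mul, ← h5, ← h6]
  ring

end Vale.Agent.P139Z.Sph
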