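import Vale.Agent.P139Z.Sph.Harm

/-!
Block SPH, part 3: the radial components of a function, and reconstruction from them.
-/

open Set Filter Topology MeasureTheory Complex
open scoped ContDiff ComplexConjugate

namespace Vale.Agent.P139Z.Sph

variable {d K : ℕ} {f g : Eu d → ℂ} {Y : Sp d → ℂ}

/-- The radial derivatives of the component along `Y`. -/
noncomputable def prD (f : Eu d → ℂ) (Y : Sp d → ℂ) (j : ℕ) (r : ℝ) : ℂ :=
  ∫ w : Sp d, iteratedFDeriv ℝ j f (r • (w : Eu d)) (fun _ => (w : Eu d)) * Y w ∂sg d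

theorem cont_D (hf : ContDiff ℝ K f) (hY : Continuous Y) {j : ℕ} (hj : j ≤ K) :
    Continuous (Function.uncurry fun (r : ℝ) (w : Sp d) =>
      iteratedFDeriv ℝ j f (r • (w : Eu d)) (fun _ => (w : Eu d)) * Y w) := by
  have h1 := hf.continuous_iteratedFDeriv (m := j) (by exact_mod_cast hj)
  fun_prop

theorem hasDerivAt_prD (hf : ContDiff ℝ K f) (hY : Continuous Y) {j : ℕ} (hj : j < K) (r : ℝ) :
    HasDerivAt (prD f Y j) (prD f Y (j + 1) r) r := by
  refine hasDerivAt_int (cont_D hf hY hj.le) (cont_D hf hY hj) (fun r w => ?_) r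
  have h1 := (hf.differentiable_iteratedFDeriv (m := j) (by exact_mod_cast hj)
    (r • (w : Eu d))).hasFDerivAt.comp_hasDerivAt r ((hasDerivAt_id r).smul_const (w : Eu d))
  have h2 := (ContinuousMultilinearMap.apply ℝ (fun _ : Fin j => Eu d) ℂ
    (fun _ => (w : Eu d))).hasFDerivAt.comp_hasDerivAt r h1
  rw [one_smul] at h2
  exact h2.mul_const (Y w)

theorem iteratedDeriv_pr (hf : ContDiff ℝ K f) (hY : Continuous Y) {j : ℕ} (hj : j ≤ K) :
    iteratedDeriv j (pr f Y) = prD f Y j := by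
  induction j with
  | zero => funext r; simp [pr, prD]
  | succ j ih =>
    rw [iteratedDeriv_succ, ih (by omega)]
    exact funext fun r => (hasDerivAt_prD hf hY hj r).deriv

theorem bddC_pr (hf : ContDiff ℝ K f) (hY : Continuous Y) {C : ℝ}
    (hC : ∀ j ≤ K, ∀ y, ‖iteratedFDeriv ℝ j f y‖ ≤ C) : BddC K (pr f Y) := by
  refine ⟨contDiff_nat_iff_iteratedDeriv.2 ⟨fun j hj => ?_, fun j hj => ?_⟩,
    ∫ w, C * ‖Y w‖ ∂sg d, fun j hj r => ?_⟩
  · rw [iteratedDeriv_pr hf hY hj]
    exact cont_int (cont_D hf hY hj)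
  · rw [iteratedDeriv_pr hf hY hj.le]
    exact fun r => (hasDerivAt_prD hf hY hj r).differentiableAt
  · rw [iteratedDeriv_pr hf hY hj]
    refine norm_integral_le_of_norm_le ((intg hY).norm.const_mul C)
      (Eventually.of_forall fun w => ?_)
    rw [norm_mul]
    refine mul_le_mul_of_nonneg_right (((iteratedFDeriv ℝ j f _).le_opNorm _).trans ?_)
      (norm_nonneg _)
    simpa [nrm_one] using hC j hj _

theorem deriv_pr (hf : ContDiff ℝ 2 f) (hY : Continuous Y) (r : ℝ) :
    deriv (pr f Y) r = ∫ w : Sp d, fderiv ℝ f (r • (w : Eu d)) w * Y w ∂sg d := by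
  rw [← iteratedDeriv_one, iteratedDeriv_pr (K := 2) hf hY one_le_two]
  simp [prD]

theorem deriv2_pr (hf : ContDiff ℝ 2 f) (hY : Continuous Y) (r : ℝ) :
    iteratedDeriv 2 (pr f Y) r =
      ∫ w : Sp d, fderiv ℝ (fderiv ℝ f) (r • (w : Eu d)) w w * Y w ∂sg d := by
  rw [iteratedDeriv_pr (K := 2) hf hY le_rfl]
  simp [prD, iteratedFDeriv_two_apply]

/-- The radial equation of the component along an eigenfunction. -/
theorem radial {l : ℕ} (hY : Eig l Y) (hf : ContDiff ℝ 2 f) (hg : Continuous g) {r : ℝ}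
    (hr : 0 < r) {a b b' P R : ℂ} {c : Fin d → ℂ}
    (h : ∀ w : Sp d, lap f (r • (w : Eu d)) = a * eul f (r • (w : Eu d)) + b * f (r • (w : Eu d))
      + b' * g (r • (w : Eu d)) + P + R * ∑ i, c i * ((w : Eu d) i : ℂ)) :
    iteratedDeriv 2 (pr f Y) r + ((d : ℂ) - 1) / r * deriv (pr f Y) r - ev d l / r ^ 2 * pr f Y r =
      a * r * deriv (pr f Y) r + b * pr f Y r + b' * pr g Y r + P * ∫ w, Y w ∂sg d +
        R * ∑ i, c i * ∫ w : Sp d, ((w : Eu d) i : ℂ) * Y w ∂sg d := by
  have c0 := hY.cont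
  have c1 := hf.continuous
  have c2 := hf.continuous_fderiv two_ne_zero
  have c3 := (hf.fderiv_right (m := 1) le_rfl).continuous_fderiv one_ne_zero
  have h1 := hY.eq f hf r
  have h2 : ∀ w : Sp d, Cas f (r • (w : Eu d)) * Y w =
      (2 * r ^ 2 * a * r - 2 * (d - 1) * r) * (fderiv ℝ f (r • (w : Eu d)) w * Y w) +
      2 * r ^ 2 * b * (f (r • (w : Eu d)) * Y w) + 2 * r ^ 2 * b' * (g (r • (w : Eu d)) * Y w) +
      2 * r ^ 2 * P * Y w + 2 * r ^ 2 * R * (∑ i, c i * (((w : Eu d) i : ℂ) * Y w)) -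
      2 * r ^ 2 * (fderiv ℝ (fderiv ℝ f) (r • (w : Eu d)) w w * Y w) := by
    intro w
    rw [Cas_eq hf, h, eul, norm_smul, nrm_one, Real.norm_of_nonneg hr.le]
    simp only [map_smul, smul_apply, real_smul, ← mul_assoc, ← Finset.sum_mul]
    push_cast
    ring
  rw [show pr f (fun _ => 0) r = 0 by simp [pr], pr] at h1
  simp only [h2] at h1
  rw [integral_sub (intg (by fun_prop)) (intg (by fun_prop)),
    integral_add (intg (by fun_prop)) (intg (by fun_prop)),
    integral_add (intg (by fun_prop)) (intg (by fun_prop)),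
    integral_add (intg (by fun_prop)) (intg (by fun_prop)),
    integral_add (intg (by fun_prop)) (intg (by fun_prop))] at h1
  simp only [integral_const_mul] at h1
  rw [integral_finsetSum _ fun i _ => intg (by fun_prop), ← deriv_pr hf c0, ← deriv2_pr hf c0] at h1
  simp only [integral_const_mul] at h1
  have h0 : (r : ℂ) ≠ 0 := by exact_mod_cast hr.ne'
  simp only [pr] at h1 ⊢
  field_simp
  linear_combination (-1 / 2) * h1

/-- The total mass. -/
noncomputable def mass (d : ℕ) : ℂ := ∫ _ : Sp d, 1 ∂sg d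

/-- The second moments. -/
noncomputable def mom (i : Fin d) : ℂ := ∫ w : Sp d, ((w : Eu d) i : ℂ) * (w : Eu d) i ∂sg d

theorem mass_ne (i : Fin d) : mass d ≠ 0 := fun h =>
  one_ne_zero (eq_zero_of_sq (h := fun _ : Sp d => 1) continuous_const (by simpa [mass] using h)
    ⟨ee i, by simp⟩)

theorem mom_ne (i : Fin d) : mom i ≠ 0 := fun h => by
  simpa using eq_zero_of_sq (h := fun w : Sp d => ((w : Eu d) i : ℂ)) (by fun_prop)
    (by simpa [mom] using h) ⟨ee i, by simp⟩

theorem mom_off {i j : Fin d} (hij : i ≠ j) :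
    ∫ w : Sp d, ((w : Eu d) i : ℂ) * (w : Eu d) j ∂sg d = 0 := by
  have h1 := int_Lop j i (((Hom.coord i).mul (Hom.coord i)).two.of_le one_le_two)
  have h2 : ∀ y : Eu d, Lop j i (fun y : Eu d => (y i : ℂ) * y i) y = 2 * (y i * y j) := by
    intro y
    have h3 : HasFDerivAt (fun y : Eu d => (y i : ℂ)) _ y :=
      (ofRealCLM.comp (EuclideanSpace.proj (𝕜 := ℝ) i)).hasFDerivAt
    have h4 : HasFDerivAt (fun y : Eu d => (y i : ℂ) * y i) _ y := h3.mul h3
    rw [Lop, h4.fderiv]
    simp [Jm_apply, hij]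
    ring
  simpa [h2, integral_const_mul] using h1

/-- A function without components of degree at least two is affine. -/
theorem recon (hd : 2 ≤ d) {h : Sp d → ℂ} (hh : Continuous h)
    (h2 : ∀ l, 2 ≤ l → ∀ Y, Eig l Y → ∫ w, h w * Y w ∂sg d = 0) (w : Sp d) :
    h w = (∫ w, h w ∂sg d) / mass d +
      ∑ i, (∫ w : Sp d, h w * ((w : Eu d) i : ℂ) ∂sg d) / mom i * ((w : Eu d) i : ℂ) := by
  set P := (∫ w, h w ∂sg d) / mass d with hP
  set c := fun i => (∫ w : Sp d, h w * ((w : Eu d) i : ℂ) ∂sg d) / mom i with hc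
  have key : ∀ Y : Sp d → ℂ, Continuous Y →
      ∫ w, (h w - (P + ∑ i, c i * ((w : Eu d) i : ℂ))) * Y w ∂sg d = ∫ w, h w * Y w ∂sg d -
        P * ∫ w, Y w ∂sg d - ∑ i, c i * ∫ w : Sp d, ((w : Eu d) i : ℂ) * Y w ∂sg d := by
    intro Y hY
    simp only [sub_mul, add_mul, Finset.sum_mul, mul_assoc]
    rw [integral_sub (intg (by fun_prop)) (intg (by fun_prop)),
      integral_add (intg (by fun_prop)) (intg (by fun_prop)),
      integral_finsetSum _ fun i _ => intg (by fun_prop)]
    simp only [integral_const_mul]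
    ring
  have hm := mass_ne (d := d) ⟨0, by omega⟩
  refine sub_eq_zero.1 (complete hd
    (h := fun w => h w - (P + ∑ i, c i * ((w : Eu d) i : ℂ))) (by fun_prop) ?_ (fun j => ?_)
    (fun l hl Y hY => ?_) w)
  · have h3 := key (fun _ => 1) continuous_const
    simp only [eig_one.int_coord hd zero_ne_one] at h3
    simp only [mul_one, mul_zero, Finset.sum_const_zero] at h3
    rw [h3, hP, ← mass]
    field_simp
    ring
  · rw [key _ (by fun_prop), (eig_coord j).int_one hd one_ne_zero,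
      Finset.sum_eq_single j (fun i _ hi => by rw [mom_off hi, mul_zero]) (by simp), ← mom]
    have := mom_ne j
    simp only [hc]
    field_simp
    ring
  · rw [key Y hY.cont, h2 l hl Y hY, hY.int_one hd (by omega)]
    simp [hY.int_coord hd (by omega : l ≠ 1)]

end Vale.Agent.P139Z.Sph
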